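import Vale.Agent.P011Z.Cl.Fin
import Vale.Agent.P011Z.Cl.SpecH

namespace Vale.Agent.Results.P011.AAAAMargulisPlatonovForms

open Matrix Vale.Agent.P011.H900 Vale.Agent.P011Z Vale.Agent.P011Z.Fm

open Vale.Agent.P011Z.Cl (Glob FormA Rk0 Spin)

/-- **The Margulis-Platonov conjecture over global fields**, for all groups for which it was open.
A form over `k` of a split simply connected group is given by Galois descent, by an action `θ` of
the Galois group of a finite Galois extension `F` on the group of points over `F` of the split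
group; the group of rational points consists of the fixed points. The forms have rank zero. First
clause: outer forms of type `A` over global fields. Second and third clause: trialitarian forms of
type `D₄` and forms of type `E₆` over number fields. The normal subgroups are arbitrary. -/
theorem result {k F : Type} [Field k] [Field F] [Algebra k F] [FiniteDimensional k F]
    [IsGalois k F] :
    (∀ (n : ℕ) (a : (F ≃ₐ[k] F) → Matrix (Fin n) (Fin n) F) (o : (F ≃ₐ[k] F) → Prop)
      (θ : Act (F ≃ₐ[k] F) (SpecialLinearGroup (Fin n) F)),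
      Glob k → 3 ≤ n → FormA a o θ → (Rk0 k fun g : Pts θ => g.el.1) →
        Cl1 fun (g : Pts θ) (x : HA a o) => Dg a o g.el.1 x) ∧
    (∀ θ : Act (F ≃ₐ[k] F) (Gp (Spin (F := F))), NumberField k → FmD θ.ap → Cl0 k θ) ∧
    ∀ θ : Act (F ≃ₐ[k] F) (Gp (Cub (a := (1 : F)) (b := 1) 1)), NumberField k → FmE θ.ap →
      Cl0 k θ :=
  ⟨fun n _ _ _ => Cl.form_A (Cl.ma k F n),
    fun θ _ h => Cl.fin_D θ ⟨h.1, h.2.imp fun _ ⟨f, h1, h2, ⟨t, h3⟩, u, h4⟩ =>
      ⟨f, t, u, h1, h2, h3, h4⟩⟩,
    fun θ _ => Cl.fin_E θ⟩

end Vale.Agent.Results.P011.AAAAMargulisPlatonovForms
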